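import Vale.Agent.P017.H506.Final2

/-!
# `X₀(15)` has finitely many points over more than `15%` of all imaginary quadratic fields

`X015` is the modular curve `X₀(15)`, with its Weierstrass equation
`y² + xy + y = x³ + x² - 10x - 10` over `ℚ` (the curve `15a1` of Cremona's tables).
For squarefree `d ≥ 1`, `dsc d` is the absolute value of the discriminant of `ℚ(√-d)`.
-/

universe u

open Vale.Agent.P017 in
/-- Order the imaginary quadratic fields `ℚ(√-d)` by the absolute value `dsc d` of the discriminant.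
(1) For every `ε > 0` and all sufficiently large `X`, the proportion of fields with `dsc d ≤ X` over
which `X₀(15)` has only finitely many points is at least `(25/48) ∏_{j ≥ 1} (1 - 2^(-j)) - ε`.
(2) For all sufficiently large `X` this proportion is at least `3/20`. -/
theorem Vale.Agent.Results.P017.DensityFifteenPercent.result :
    (∀ ε : ℝ, 0 < ε → ∃ X₀ : ℕ, ∀ X : ℕ, X₀ ≤ X →
      (25 / 48 * (∏' j : ℕ, (1 - 1 / 2 ^ (j + 1) : ℝ)) - ε) *
          (Set.ncard {d : ℕ | Squarefree d ∧ H506.dsc d ≤ X} : ℝ) ≤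
        (Set.ncard {d : ℕ | Squarefree d ∧ H506.dsc d ≤ X ∧
          ∀ (K : Type u) [Field K] [NumberField K] [Algebra.IsQuadraticExtension ℚ K] (θ : K),
            θ ^ 2 = -(d : K) → Finite (H185.X015.baseChange K).toAffine.Point} : ℝ)) ∧
    ∃ X₀ : ℕ, ∀ X : ℕ, X₀ ≤ X →
      (3 / 20) * (Set.ncard {d : ℕ | Squarefree d ∧ H506.dsc d ≤ X} : ℝ) ≤
        (Set.ncard {d : ℕ | Squarefree d ∧ H506.dsc d ≤ X ∧
          ∀ (K : Type u) [Field K] [NumberField K] [Algebra.IsQuadraticExtension ℚ K] (θ : K),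
            θ ^ 2 = -(d : K) → Finite (H185.X015.baseChange K).toAffine.Point} : ℝ) := by
  classical
  have hle : ∀ X d : ℕ, H506.dsc d ≤ X → d ≤ X := by
    intro X d hd
    unfold H506.dsc at hd
    split_ifs at hd <;> omega
  have e1 : ∀ X : ℕ, ({d : ℕ | Squarefree d ∧ H506.dsc d ≤ X} : Set ℕ) =
      ((H506.AllX X : Finset ℕ) : Set ℕ) := by
    intro X
    ext d
    rw [Finset.mem_coe, H506.S1.mem_AllX, Set.mem_setOf_eq]
    exact ⟨fun h => ⟨Nat.lt_succ_of_le (hle X d h.2), h⟩, fun h => h.2⟩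
  have e2 : ∀ X : ℕ, ((H506.TX0.{u} X).card : ℝ) ≤
      (Set.ncard {d : ℕ | Squarefree d ∧ H506.dsc d ≤ X ∧
          ∀ (K : Type u) [Field K] [NumberField K] [Algebra.IsQuadraticExtension ℚ K] (θ : K),
            θ ^ 2 = -(d : K) → Finite (H185.X015.baseChange K).toAffine.Point} : ℝ) := by
    intro X
    have hfin : {d : ℕ | Squarefree d ∧ H506.dsc d ≤ X}.Finite :=
      (Set.finite_Iic X).subset fun d hd => hle X d hd.2
    rw [← Set.ncard_coe_finset]
    refine Nat.cast_le.2 (Set.ncard_le_ncard (fun d hd => ?_)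
      (hfin.subset fun d hd => ⟨hd.1, hd.2.1⟩))
    unfold H506.TX0 at hd
    rw [Finset.mem_coe, Finset.mem_filter, H506.S1.mem_AllX] at hd
    exact ⟨hd.1.2.1, hd.1.2.2, hd.2⟩
  refine ⟨fun ε hε => ?_, ?_⟩
  · obtain ⟨X₀, h⟩ := H506.dens_final2.{u} ε hε
    refine ⟨X₀, fun X hX => ?_⟩
    rw [e1, Set.ncard_coe_finset]
    exact (h X hX).trans (e2 X)
  · obtain ⟨X₀, h⟩ := H506.dens_fifteen.{u}
    refine ⟨X₀, fun X hX => ?_⟩
    rw [e1, Set.ncard_coe_finset]
    exact (h X hX).trans (e2 X)
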