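import Vale.Agent.P017.H262.Main
import Vale.Agent.P017.H262.Gal

/-!
# P017: elliptic curves over imaginary quadratic fields with rational subgroups of order `3`
and `5`

Let `K` be an imaginary quadratic field in which `2` is not inert or `5` is not a norm.  If an
elliptic curve `W` over `K` has a rational subgroup of order `3` and a rational subgroup of
order `5` (equivalently, comes from a non-cuspidal `K`-point of `X₀(15)`), then its
`j`-invariant is non-integral at every prime of `K` above `2`.  No finiteness of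
`X₀(15)(K)` is assumed.
-/

namespace Vale.Agent.Results.P017.FifteenIsogeny

open NumberField IsDedekindDomain WeierstrassCurve

theorem result (K : Type*) [Field K] [NumberField K] [Algebra.IsQuadraticExtension ℚ K]
    [IsTotallyComplex K] [DecidableEq (AlgebraicClosure K)]
    (hK : ¬ (Ideal.span {(2 : 𝓞 K)}).IsPrime ∨ ¬ ∃ z : K, Algebra.norm ℚ z = 5)
    (W : WeierstrassCurve K) [W.IsElliptic]
    (C₃ C₅ : AddSubgroup (W⁄(AlgebraicClosure K)).toAffine.Point)
    (h₃ : Nat.card C₃ = 3) (h₅ : Nat.card C₅ = 5)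
    (g₃ : ∀ σ : AlgebraicClosure K ≃ₐ[K] AlgebraicClosure K, ∀ P ∈ C₃,
      Affine.Point.map (W' := W) (σ : AlgebraicClosure K →ₐ[K] AlgebraicClosure K) P ∈ C₃)
    (g₅ : ∀ σ : AlgebraicClosure K ≃ₐ[K] AlgebraicClosure K, ∀ P ∈ C₅,
      Affine.Point.map (W' := W) (σ : AlgebraicClosure K →ₐ[K] AlgebraicClosure K) P ∈ C₅)
    (v : HeightOneSpectrum (𝓞 K)) (hv : (2 : 𝓞 K) ∈ v.asIdeal) :
    1 < v.valuation K W.j := by
  obtain ⟨x, hx⟩ := Vale.Agent.P017.H262.three_root W C₃ h₃ g₃
  obtain ⟨h, hh, hj⟩ := Vale.Agent.P017.H262.three_param W hx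
  obtain ⟨s, p, hne, e1, e2⟩ := Vale.Agent.P017.H262.five_sp W C₅ h₅ g₅
  obtain ⟨t, ht, hj'⟩ := Vale.Agent.P017.H262.five_param W hne e1 e2
  have := Vale.Agent.P017.H262.main hK hh ht (hj.symm.trans hj') v hv
  rw [hj']
  exact this

end Vale.Agent.Results.P017.FifteenIsogeny
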