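import Vale.Agent.P017.H994.Fam

/-!
# Finiteness of `X₀(15)(K)` when `3` is inert and `5` splits in `K`

`X015` is the modular curve `X₀(15)`, with its Weierstrass equation
`y² + xy + y = x³ + x² - 10x - 10` over `ℚ` (the curve `15a1` of Cremona's tables).
-/

universe u

open NumberField Vale.Agent.P017.H185 in
/-- (1) Let `K` be an imaginary quadratic field in which `3` is inert and `5` splits.  Suppose that
the only squarefree `b ≥ 1` with `b ≡ 1 mod 3` which are norms from `K` and whose prime factors are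
ramified in `K` or equal to `5`, are `b = 1` and the `b` with `K = ℚ(√-b)`.  Then `X₀(15)(K)` is
finite.
(2) For every `n ≥ 1` there are infinitely many squarefree `d ≡ 31 mod 60` with exactly `n` prime
factors such that `X₀(15)(ℚ(√-d))` is finite.
(3) `X₀(15)(K)` is finite for `K = ℚ(√-p)` for all primes `p` in six residue classes modulo `120`,
and for `K = ℚ(√-2p)` for all primes `p` in four residue classes modulo `120`. -/
theorem Vale.Agent.Results.P017.InertThreeSplitFive.result :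
    (∀ (K : Type u) [Field K] [NumberField K] [Algebra.IsQuadraticExtension ℚ K]
      [IsTotallyComplex K],
      (Ideal.span {(3 : 𝓞 K)}).IsPrime →
      (∃ P Q : Ideal (𝓞 K), P.IsPrime ∧ Q.IsPrime ∧ (5 : 𝓞 K) ∈ P ∧ (5 : 𝓞 K) ∈ Q ∧ P ≠ Q) →
      (∀ b : ℕ, Squarefree b →
        (∀ p : ℕ, p.Prime → p ∣ b → p = 5 ∨ ∃ P : Ideal (𝓞 K), P ^ 2 = Ideal.span {(p : 𝓞 K)}) →
        b % 3 = 1 → (∃ w : K, Algebra.norm ℚ w = b) → b = 1 ∨ ∃ θ : K, θ ^ 2 = -(b : K)) →
      Finite (X015.baseChange K).toAffine.Point) ∧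
    (∀ n : ℕ, 0 < n →
      {d : ℕ | Squarefree d ∧ d.primeFactors.card = n ∧ d % 60 = 31 ∧
        ∀ (K : Type u) [Field K] [NumberField K] [Algebra.IsQuadraticExtension ℚ K] (θ : K),
          θ ^ 2 = -(d : K) → Finite (X015.baseChange K).toAffine.Point}.Infinite) ∧
    (∀ p : ℕ, p.Prime →
      ∀ (K : Type u) [Field K] [NumberField K] [Algebra.IsQuadraticExtension ℚ K] (θ : K),
        (θ ^ 2 = -(p : K) ∧ (p % 120 = 19 ∨ p % 120 = 31 ∨ p % 120 = 61 ∨ p % 120 = 79 ∨
          p % 120 = 91 ∨ p % 120 = 109)) ∨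
        (θ ^ 2 = -(2 * (p : K)) ∧ (p % 120 = 17 ∨ p % 120 = 23 ∨ p % 120 = 47 ∨
          p % 120 = 113)) →
        Finite (X015.baseChange K).toAffine.Point) := by
  refine ⟨fun K _ _ _ _ h3 h5 H => Vale.Agent.P017.H994.criterion_II K h3 h5 H,
    fun _ hn => Vale.Agent.P017.H994.families2 hn, ?_⟩
  intro p hp K _ _ _ θ h
  rcases h with ⟨hθ, h⟩ | ⟨hθ, h⟩
  · exact Vale.Agent.P017.H994.primes_one hp (by omega) hθ
  · exact Vale.Agent.P017.H994.primes_two hp h (θ := θ) (by rw [hθ]; push_cast; rfl)
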